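import Vale.Agent.P328.Algo

/-!
The list algorithm agrees with the algorithm on functions; the machine.
-/

namespace Vale.Agent.P328

open Finset

namespace AL

theorem sm_ofFn {m : ℕ} (r : Fin m → ℕ) (f : ℕ → ℕ) : sm (List.ofFn r) f = ∑ i : Fin m, f i := by
  rw [sm, List.length_ofFn, Fin.sum_univ_eq_sum_range f m]; rfl

theorem smZ_ofFn {m : ℕ} (r : Fin m → ℕ) (f : ℕ → ℤ) : smZ (List.ofFn r) f = ∑ i : Fin m, f i := by
  rw [smZ, List.length_ofFn, Fin.sum_univ_eq_sum_range f m]; rfl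

theorem getD_ofFn {m : ℕ} (r : Fin m → ℕ) (i : Fin m) : (List.ofFn r).getD i 0 = r i := by
  simp

theorem amax_spec {m : ℕ} (hm : 0 < m) (r : Fin m → ℕ) :
    ∃ h : amax (List.ofFn r) < m, ∀ i, r i ≤ r ⟨_, h⟩ := by
  obtain ⟨i0, -, h0⟩ := exists_max_image univ r ⟨⟨0, hm⟩, mem_univ _⟩
  have hmem : amax (List.ofFn r) ∈ (List.range (List.ofFn r).length).filter
      fun i => (List.ofFn r).all fun y => decide (y ≤ (List.ofFn r).getD i 0) := by
    have h1 : (i0 : ℕ) ∈ (List.range (List.ofFn r).length).filter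
        fun i => (List.ofFn r).all fun y => decide (y ≤ (List.ofFn r).getD i 0) := by
      rw [List.mem_filter, getD_ofFn]
      refine ⟨by simp, ?_⟩
      simp only [List.all_eq_true, List.mem_ofFn, decide_eq_true_eq]
      rintro _ ⟨i, rfl⟩
      exact h0 i (mem_univ _)
    unfold amax
    generalize (List.range (List.ofFn r).length).filter _ = L at h1 ⊢
    cases L with
    | nil => simp at h1
    | cons x L => simp
  rw [List.mem_filter] at hmem
  have h1 : amax (List.ofFn r) < m := by simpa using hmem.1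
  refine ⟨h1, fun i => ?_⟩
  have h2 := hmem.2
  rw [getD_ofFn r ⟨_, h1⟩] at h2
  simp only [List.all_eq_true, List.mem_ofFn, decide_eq_true_eq] at h2
  exact h2 _ ⟨i, rfl⟩

theorem sum_take {m : ℕ} (r : Fin m → ℕ) (k : ℕ) :
    ((List.ofFn r).take k).sum = ∑ l with l.val < k, r l := List.sum_take_ofFn r k

theorem map_range {α : Type} (m : ℕ) (f : ℕ → α) :
    (List.range m).map f = List.ofFn fun i : Fin m => f i :=
  List.ext_getElem (by simp) fun j h1 h2 => by simp

/-- The state given by a list of updates. -/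
def vw {m n : ℕ} (x : Up) : St (Fin m) (Fin n) := fun c => ent x c.1 c.2

theorem vw_nil {m n : ℕ} : (vw [] : St (Fin m) (Fin n)) = 0 := by
  funext c; simp [vw, ent]

theorem vw_cons {m n : ℕ} (x : Up) (c : Fin m × Fin n) (v : ℕ) :
    (vw ((c.1, c.2, v) :: x) : St (Fin m) (Fin n)) = Function.update (vw x) c v := by
  funext d
  by_cases h : d = c
  · subst h; simp [vw, ent]
  · rw [Function.update_of_ne h]
    have : ¬ ((c.1 : ℕ) = d.1 ∧ (c.2 : ℕ) = d.2) := fun h' =>
      h (Prod.ext (Fin.ext h'.1.symm) (Fin.ext h'.2.symm))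
    simp only [vw, ent]
    rw [List.filter_cons_of_neg (by simpa using this)]

/-- The input represents the parameters. -/
structure Rep {m n : ℕ} (a : In) (p : Par (Fin m) (Fin n)) : Prop where
  h1 : a.1 = List.ofFn p.r
  h2 : a.2.1 = List.ofFn p.c
  hms : amax a.1 = p.ms
  hns : amax a.2.1 = p.ns
  hb : b a = p.b
  hl : p.q * (p.T1 * p.B1) ≤ a.2.2.2.length

namespace Rep

variable {m n : ℕ} {a : In} {p : Par (Fin m) (Fin n)} (h : Rep a p)
include h

theorem len1 : a.1.length = m := by rw [h.h1, List.length_ofFn]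
theorem len2 : a.2.1.length = n := by rw [h.h2, List.length_ofFn]
theorem r_eq (i : Fin m) : r a i = p.r i := by rw [r, h.h1, getD_ofFn]
theorem c_eq (j : Fin n) : c a j = p.c j := by rw [c, h.h2, getD_ofFn]
theorem q_eq : q a = p.q := by rw [Par.q, ← h.hb]; rfl
theorem ms_eq (i : Fin m) : ((i : ℕ) = amax a.1) = (i = p.ms) := by rw [h.hms, Fin.ext_iff]
theorem ns_eq (j : Fin n) : ((j : ℕ) = amax a.2.1) = (j = p.ns) := by rw [h.hns, Fin.ext_iff]
theorem rh_eq (i : Fin m) : rh a i = p.rh i := by simp only [rh, Par.rh, h.ms_eq, h.r_eq]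
theorem hh_eq (i : Fin m) : hh a i = p.hh i := by simp only [hh, Par.hh, h.rh_eq, h.q_eq]
theorem mu_eq (i : Fin m) : mu a i = p.mu i := by
  simp only [mu, Par.mu, h.rh_eq, h.q_eq, h.hh_eq]
theorem aa_eq (i : Fin m) : aa a i = p.aa i := by simp only [aa, Par.aa, h.mu_eq]
theorem SA_eq : SA a = p.SA := by
  rw [SA, Par.SA, h.h1, sm_ofFn]; simp only [h.aa_eq]
theorem gg_eq (j : Fin n) : gg a j = p.gg j := by simp only [gg, Par.gg, h.c_eq, h.q_eq]
theorem cc_eq (j : Fin n) : cc a j = p.cc j := by simp only [cc, Par.cc, h.c_eq, h.SA_eq, h.ns_eq]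
theorem ex_eq (i : Fin m) (j : Fin n) : ex a i j = p.ex (i, j) := by
  simp only [ex, Par.ex, h.r_eq, h.c_eq, h.ms_eq, h.ns_eq]
theorem WR_eq (i : Fin m) (s : ℤ) : WR a i s = p.WR i s := by
  simp only [WR, Par.WR, h.rh_eq, h.q_eq, h.mu_eq, h.hh_eq, h.hb]
theorem WC_eq (j : Fin n) (s : ℤ) : WC a j s = p.WC j s := by
  simp only [WC, Par.WC, h.c_eq, h.q_eq, h.cc_eq, h.gg_eq, h.hb]
theorem row_eq (x : Up) (i : Fin m) : row a x i = P328.row (vw x : St (Fin m) (Fin n)) i := by
  rw [row, h.h2, smZ_ofFn]; rfl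
theorem col_eq (x : Up) (j : Fin n) : col a x j = P328.col (vw x : St (Fin m) (Fin n)) j := by
  rw [col, h.h1, smZ_ofFn]; rfl
theorem W_eq (x : Up) : W a x = p.W (vw x) := by
  rw [W, Par.W, h.h1, h.h2, sm_ofFn, sm_ofFn]
  simp only [h.WR_eq, h.WC_eq, h.row_eq, h.col_eq]
theorem tr_eq (x : Up) (i : Fin m) (j : Fin n) : tr a x i j = p.tr (vw x) i j := by
  simp only [tr, Par.tr, h.ns_eq, h.row_eq, h.rh_eq]; rfl
theorem tb_eq (x : Up) (i : Fin m) (j : Fin n) : tb a x i j = p.tb (vw x) i j := by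
  simp only [tb, Par.tb, h.ms_eq, h.c_eq, h.tr_eq]
  rw [h.h1, smZ_ofFn]
  simp only [h.tr_eq]
theorem Acc_eq (x : Up) : Acc a x = decide (p.Acc (vw x)) := by
  rw [Bool.eq_iff_iff, decide_eq_true_eq, Acc, h.len1, h.len2, Par.Acc]
  simp only [Bool.and_eq_true, List.all_eq_true, List.mem_range, decide_eq_true_eq,
    ← h.rh_eq, ← h.row_eq, ← h.aa_eq, ← h.tb_eq, Fin.forall_iff]
theorem tab_eq (x : Up) : tab a x = List.ofFn fun i => List.ofFn (p.tab (vw x) i) := by
  rw [tab, h.len1, h.len2, map_range]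
  congr 1
  funext i
  rw [map_range]
  simp only [h.tb_eq]; rfl
theorem nw_eq : nw a = List.ofFn fun i => List.ofFn (P328.nw p.r p.c i) := by
  rw [nw, h.len1, h.len2, map_range, h.h1, h.h2]
  congr 1
  funext i
  rw [map_range]
  congr 1
  funext j
  simp only [sum_take, P328.nw]
  congr 2 <;> refine sum_congr ?_ fun _ _ => rfl <;> ext l <;> simp [Nat.lt_succ_iff]
theorem K4_eq : K4 a = p.K4 := by simp only [K4, Par.K4, h.hb, h.q_eq]
theorem B1_eq : B1 a = p.B1 := by simp only [B1, Par.B1, h.hb, h.q_eq, h.K4_eq]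
theorem T1_eq : T1 a = p.T1 := by simp only [T1, Par.T1, h.q_eq]
theorem inc_eq (x y : Up) : inc a x y = p.inc (vw x) (vw y) := by
  simp only [inc, Par.inc, h.W_eq, h.q_eq]

theorem clock : p.q ≤ a.2.2.2.length ∧ p.T1 ≤ a.2.2.2.length ∧ p.K4 ≤ a.2.2.2.length ∧
    p.q ^ 18 ≤ a.2.2.2.length := by
  have h0 := p.q_ge
  have h1 : 0 < p.T1 := pow_pos (by omega) _
  have h2 : p.q + p.K4 ≤ p.B1 := by unfold Par.B1; omega
  have h3 : 0 < p.b := Nat.pos_of_ne_zero fun e => by simp [Par.q, e] at h0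
  have h4 : p.q ^ 18 ≤ p.K4 := Nat.le_mul_of_pos_left _ h3
  have h5 : p.T1 * p.B1 ≤ a.2.2.2.length := (Nat.le_mul_of_pos_left _ (by omega)).trans h.hl
  have h6 := Nat.le_mul_of_pos_left p.B1 h1
  have h7 := Nat.le_mul_of_pos_right p.T1 (show 0 < p.B1 by omega)
  omega

omit h in
theorem pw_eq {x e : ℕ} (he : e ≤ a.2.2.2.length) : pw a x e = x ^ e := by
  rw [pw, List.length_take, min_eq_left he]

theorem step_eq (l : List Bool) (x : Up) : vw (step a l x) = p.fstep l (vw x) := by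
  unfold step Par.fstep
  by_cases h1 : val (l.take p.b) < m ∧ val ((l.drop p.b).take p.b) < n
  · rw [dif_pos h1]
    have e : (vw (upd a l :: x) : St (Fin m) (Fin n)) =
        Function.update (vw x) (⟨_, h1.1⟩, ⟨_, h1.2⟩)
          (val ((l.drop (2 * p.b)).take (p.ex (⟨_, h1.1⟩, ⟨_, h1.2⟩))) : ℕ) := by
      rw [← vw_cons, ← h.ex_eq, upd, h.hb]
    have hi : p.inc (vw x) (vw (upd a l :: x)) ≤ a.2.2.2.length :=
      (min_le_right _ _).trans h.clock.2.2.2
    unfold Par.fcell Par.ffil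
    rw [← e, ok, h.inc_eq, h.K4_eq, pw_eq hi, pw_eq hi, pw_eq h.clock.2.2.1, h.q_eq, h.len1, h.len2]
    simp only [upd, h.hb, h1.1, h1.2, decide_true, Bool.true_and]
    split_ifs with h2 <;> simp only [h2, decide_true, decide_false, cond_true, cond_false]
  · rw [dif_neg h1]
    have : ok a l x = false := by
      rw [ok, h.len1, h.len2]
      simp only [upd, h.hb, Bool.and_eq_false_imp, Bool.and_eq_true, decide_eq_true_eq]
      exact fun h2 => absurd h2 h1
    rw [this, cond_false]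

theorem fold_eq (T : ℕ) : ∀ (l : List Bool) (x : Up), vw ((List.range T).foldl
    (fun x s => step a ((l.drop (s * p.B1)).take p.B1) x) x) = p.frun T l (vw x) := by
  induction T with
  | zero => intro l x; rfl
  | succ T ih =>
    intro l x
    rw [List.range_succ_eq_map, List.foldl_cons, List.foldl_map, Par.frun, ← h.step_eq, ← ih]
    simp only [zero_mul, List.drop_zero, List.drop_drop, Nat.succ_mul, add_comm p.B1]

theorem run_eq (l : List Bool) : vw (run a l) = p.frun p.T1 l 0 := by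
  rw [run, h.T1_eq, h.B1_eq, List.length_take, min_eq_left h.clock.2.1, h.fold_eq, vw_nil]

theorem out_eq (S : ℕ) : ∀ l : List Bool, ((((List.range S).map fun s =>
    run a ((l.drop (s * (p.T1 * p.B1))).take (p.T1 * p.B1))).filter (Acc a)).map
      (tab a)).headD (nw a) = List.ofFn fun i => List.ofFn (p.fout S l i) := by
  induction S with
  | zero => intro l; exact h.nw_eq
  | succ S ih =>
    intro l
    rw [List.range_succ_eq_map, List.map_cons, List.map_map, Par.fout, List.filter_cons, h.Acc_eq,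
      h.run_eq]
    simp only [zero_mul, List.drop_zero, decide_eq_true_eq]
    split_ifs with h1
    · rw [List.map_cons, List.headD_cons, h.tab_eq, h.run_eq]
    · rw [← ih]
      simp only [Function.comp_def, List.drop_drop, Nat.succ_mul, add_comm (p.T1 * p.B1)]

theorem alg_eq : alg a = List.ofFn fun i => List.ofFn (p.fout p.q a.2.2.2 i) := by
  rw [alg, h.T1_eq, h.B1_eq, h.q_eq, List.length_take, min_eq_left h.clock.1, h.out_eq]

end Rep

open Vale.Agent.Lib.H24.T Turing Function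

theorem code_list {α : Type} [Enc α] {f : α → List Bool} (h : ∀ a, code a = f a) (l : List α) :
    code l = codeList f l := by
  induction l with
  | nil => rfl
  | cons a l ih => rw [code_cons, ih, h]; simp [codeList]

theorem code_bit (b : Bool) : code b = codeBit b := by cases b <;> rfl

theorem code_nat (n : ℕ) : code n = codeNat n := code_list code_bit n.bits

theorem code_in (a : In) : code a = codeIn a := by
  obtain ⟨x, y, z, w⟩ := a
  rw [code_pair, code_pair, code_pair, code_list code_nat, code_list code_nat, code_nat,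
    code_list code_bit]
  rfl

theorem code_out (X : List (List ℕ)) : code X = codeOut X := code_list (code_list code_nat) X

theorem exists_tm (p : BP) : ∃ (tm : FinTM2) (ein : tm.Γ tm.k₀ ≃ Bool)
    (eout : tm.Γ tm.k₁ ≃ Bool), (∀ k, Finite (tm.Γ k)) ∧ ∀ x y t, Run p x y t →
      Nonempty (TM2OutputsInTime tm (x.map ein.invFun) (some (y.map eout.invFun)) (t + 2)) := by
  let P : BP := .seq p (clr 1)
  refine ⟨toFinTM2 (P.map (clamp P.bound)) (clamp P.bound 0) (clamp P.bound 0), Equiv.refl _,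
    Equiv.refl _, fun _ => inferInstanceAs (Finite Bool), fun x y t h => ?_⟩
  obtain ⟨t', v', ht, h1⟩ := h none
  have h2 : Exec P none (Vale.Agent.Lib.H24.T.W x [] [] []) (t' + 1) none
      (Vale.Agent.Lib.H24.T.W y [] [] []) := h1.seq (Exec.whileNil rfl)
  have hW : ∀ z, Vale.Agent.Lib.H24.T.W z [] [] [] = update (fun _ => []) 0 z := by
    intro z
    simp only [Vale.Agent.Lib.H24.T.W, scons_nil]
    rw [← update_scons_zero [], scons_nil]
  have h3 := exec_clamp P.bound h2 le_rfl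
  rw [hW, hW, update_clamp (Nat.zero_le _), update_clamp (Nat.zero_le _)] at h3
  have k1 := toFinTM2_outputs _ _ _ _ _ (t' + 1) (t + 2) (by omega) h3
  have e1 : ∀ w : List Bool, List.map (Equiv.refl Bool).invFun w = w := fun w => List.map_id w
  rw [← e1 x, ← e1 y] at k1
  exact k1

theorem alg_machine : ∃ M : TM2ComputableInPolyTime codeIn codeOut alg,
    ∀ k, Finite (M.tm.Γ k) := by
  obtain ⟨p, t, ⟨k, hk⟩, hp⟩ := pt_alg
  obtain ⟨tm, ein, eout, h1, h2⟩ := exists_tm p
  have h3 : ∀ S, Nonempty (TM2OutputsInTime tm ((codeIn S).map ein.invFun)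
      (some ((codeOut (alg S)).map eout.invFun))
      (((Polynomial.X + 2) ^ k + 2 : Polynomial ℕ).eval (codeIn S).length)) := by
    intro S
    obtain ⟨h⟩ := h2 _ _ _ ((hp S).mono (hk S))
    rw [code_in, code_out, sz, code_in] at h
    refine ⟨?_⟩
    simpa using h
  exact ⟨⟨⟨tm, ein, eout⟩, (Polynomial.X + 2) ^ k + 2, fun S => (h3 S).some⟩, h1⟩

theorem q_bounds {t : ℕ} (h : 64 ≤ t) : t ^ 4 ≤ 2 ^ (4 * t.size) ∧ 2 ^ (4 * t.size) ≤ t ^ 5 := by
  have h1 := Nat.lt_size_self t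
  have h2 : 2 ^ t.size ≤ 2 * t := by
    obtain ⟨k, hk⟩ : ∃ k, t.size = k + 1 := ⟨t.size - 1, by
      have := Nat.size_pos.2 (show 0 < t by omega); omega⟩
    have := Nat.lt_size.1 (show k < t.size by omega)
    rw [hk, pow_succ]; omega
  rw [mul_comm 4, pow_mul]
  refine ⟨Nat.pow_le_pow_left h1.le 4, (Nat.pow_le_pow_left h2 4).trans ?_⟩
  rw [mul_pow, pow_succ' t 4]
  exact Nat.mul_le_mul_right _ (by omega)

theorem size_sum {m : ℕ} (r : Fin m → ℕ) : (∑ i, r i).size ≤ m + ∑ i, (r i).size := by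
  induction m with
  | zero => simp
  | succ m ih =>
    rw [Fin.sum_univ_succ, Fin.sum_univ_succ]
    have h1 := Nat.size_le.1 (ih fun i => r i.succ)
    have h2 := Nat.lt_size_self (r 0)
    refine Nat.size_le.2 ?_
    have h3 := Nat.pow_le_pow_right (show 0 < 2 by omega)
      (show (r 0).size ≤ m + ((r 0).size + ∑ i : Fin m, (r i.succ).size) by omega)
    have h4 := Nat.pow_le_pow_right (show 0 < 2 by omega)
      (show m + ∑ i : Fin m, (r i.succ).size ≤ m + ((r 0).size + ∑ i : Fin m, (r i.succ).size) by omega)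
    rw [show m + 1 + ((r 0).size + ∑ i : Fin m, (r i.succ).size) =
      m + ((r 0).size + ∑ i : Fin m, (r i.succ).size) + 1 by omega, pow_succ]
    omega

theorem clock_le {m n : ℕ} (p : Par (Fin m) (Fin n)) : p.q * (p.T1 * p.B1) ≤ p.q ^ 155 := by
  have h0 := p.q_ge
  have h1 : p.b ≤ p.q := (Nat.lt_two_pow_self).le
  have h2 : p.K4 ≤ p.q ^ 19 := by rw [pow_succ']; exact Nat.mul_le_mul_right _ h1
  have h3 : p.q ≤ p.q ^ 19 := Nat.le_self_pow (by omega) _
  have h4 : p.B1 ≤ p.q * p.q ^ 19 := (show p.B1 ≤ 4 * p.q ^ 19 by unfold Par.B1; omega).trans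
    (Nat.mul_le_mul_right _ (by omega))
  refine (Nat.mul_le_mul_left _ (Nat.mul_le_mul_left _ h4)).trans_eq ?_
  rw [Par.T1]; ring

end AL

open AL in
theorem final (h : ∀ (m n : ℕ) (p : Par (Fin m) (Fin n)) (k : ℕ), (∑ i, p.r i).size + 4 ≤ p.q →
    6 * (k + 1) ≤ p.q → p.LawStmt k) : FinalStmt := by
  refine ⟨alg, (Polynomial.X + 64) ^ 775, alg_machine, fun m n r c hm hn hs k => ?_⟩
  obtain ⟨m1, m2⟩ := amax_spec hm r
  obtain ⟨n1, n2⟩ := amax_spec hn c
  obtain ⟨T, hT⟩ : ∃ T, T = len r c + k + 64 := ⟨_, rfl⟩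
  have hl : m + n + ∑ i, (r i).size ≤ len r c := by unfold len; omega
  obtain ⟨q1, q2⟩ := q_bounds (show 64 ≤ T by omega)
  have q3 : 64 * T ^ 3 ≤ T ^ 4 := by rw [pow_succ' T 3]; exact Nat.mul_le_mul_right _ (by omega)
  have q4 : T ≤ T ^ 3 := Nat.le_self_pow (by omega) _
  let p : Par (Fin m) (Fin n) := ⟨r, c, ⟨_, m1⟩, ⟨_, n1⟩, 4 * T.size, hs, m2, n2, by
    refine le_trans ?_ (q3.trans q1)
    simp only [Fintype.card_fin]
    exact Nat.mul_le_mul_left _ (Nat.pow_le_pow_left (by omega) 3)⟩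
  have hq : p.q = 2 ^ (4 * T.size) := rfl
  have hP : ((Polynomial.X + 64) ^ 775 : Polynomial ℕ).eval (len r c + k) = T ^ 775 := by
    simp [hT]
  have hc : p.q * (p.T1 * p.B1) ≤ ((Polynomial.X + 64) ^ 775 : Polynomial ℕ).eval (len r c + k) := by
    rw [hP, show 775 = 5 * 155 by norm_num, pow_mul]
    exact (clock_le p).trans (Nat.pow_le_pow_left q2 _)
  obtain ⟨l1, l2⟩ := h m n p k (by have := size_sum r; show (∑ i, r i).size + 4 ≤ _; omega)
    (by omega)
  refine ⟨fun ρ => p.fout p.q (List.ofFn ρ), fun ρ => ⟨l1 _, ?_⟩, l2 _ hc⟩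
  refine Rep.alg_eq (a := (List.ofFn r, List.ofFn c, k, List.ofFn ρ)) (p := p)
    ⟨rfl, rfl, rfl, rfl, ?_, by simpa using hc⟩
  have e : t (List.ofFn r, List.ofFn c, k, List.ofFn ρ) = T := by
    simp only [t, sm_ofFn, AL.r, AL.c, getD_ofFn, List.length_ofFn, hT, len]
  show _ = 4 * T.size
  simp only [b, bU, e, List.length_append, Nat.size_eq_bits_len]
  omega

end Vale.Agent.P328
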