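import Vale.Agent.P328.Spec
import Vale.Agent.P338.PTX

/-!
The algorithm on lists and its running time.
-/

namespace Vale.Agent.P328.AL

open Vale.Agent.Lib.H24.T Vale.Agent.P338.PTX

/-- Inputs. -/
abbrev In : Type := List ℕ × List ℕ × ℕ × List Bool

/-- A state, as the list of the updates, newest first. -/
abbrev Up : Type := List (ℕ × ℕ × ℕ)

/-- Sum of a function over the indices of a list. -/
def sm (l : List ℕ) (f : ℕ → ℕ) : ℕ := ((List.range l.length).map f).sum

/-- Sum of a function over the indices of a list. -/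
def smZ (l : List ℕ) (f : ℕ → ℤ) : ℤ := ((List.range l.length).map f).sum

/-- Index of a largest entry. -/
def amax (l : List ℕ) : ℕ :=
  ((List.range l.length).filter fun i => l.all fun y => decide (y ≤ l.getD i 0)).headD 0

/-- An entry of a state. -/
def ent (x : Up) (i j : ℕ) : ℤ :=
  (((x.filter fun u => decide (u.1 = i) && decide (u.2.1 = j)).headD (0, 0, 0)).2.2 : ℕ)

variable (a : In)

/-- Row sums. -/
def r (i : ℕ) : ℕ := a.1.getD i 0
/-- Column sums. -/
def c (j : ℕ) : ℕ := a.2.1.getD j 0
/-- The size parameter. -/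
def t : ℕ := a.1.length + a.2.1.length + sm a.1 (fun i => (r a i).size) +
  sm a.2.1 (fun j => (c a j).size) + a.2.2.1 + 64
/-- The precision in unary. -/
def bU : List Bool := (t a).bits ++ (t a).bits ++ (t a).bits ++ (t a).bits
/-- The precision. -/
def b : ℕ := (bU a).length
/-- The base. -/
def q : ℕ := 2 ^ (bU a).length
/-- Bounded power. -/
def pw (x e : ℕ) : ℕ := x ^ (a.2.2.2.take e).length
/-- List version. -/
def rh (i : ℕ) : ℕ := if i = amax a.1 then 0 else r a i
/-- List version. -/
def hh (i : ℕ) : ℕ := rh a i / q a ^ 5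
/-- List version. -/
def mu (i : ℕ) : ℕ := if q a ^ 13 ≤ rh a i then q a * hh a i else 0
/-- List version. -/
def aa (i : ℕ) : ℕ := 2 * mu a i
/-- List version. -/
def SA : ℕ := sm a.1 (aa a)
/-- List version. -/
def gg (j : ℕ) : ℕ := c a j / q a ^ 5
/-- List version. -/
def cc (j : ℕ) : ℕ := if j = amax a.2.1 then c a j + 2 * SA a else c a j
/-- List version. -/
def ex (i j : ℕ) : ℕ := if i = amax a.1 then 0 else
  (if j = amax a.2.1 then 6 * r a i + 8 else 2 * min (r a i) (c a j) + 3).size
/-- List version. -/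
def WR (i : ℕ) (s : ℤ) : ℕ :=
  if q a ^ 13 ≤ rh a i then (s - rh a i - mu a i).natAbs ^ 2 / hh a i ^ 2
  else 3 * q a * b a * (s - rh a i).natAbs
/-- List version. -/
def WC (j : ℕ) (s : ℤ) : ℕ :=
  if q a ^ 12 ≤ c a j then (s - cc a j).toNat ^ 2 / gg a j ^ 2
  else q a * b a * (s - cc a j).toNat
/-- List version. -/
def row (x : Up) (i : ℕ) : ℤ := smZ a.2.1 fun j => ent x i j
/-- List version. -/
def col (x : Up) (j : ℕ) : ℤ := smZ a.1 fun i => ent x i j
/-- List version. -/
def W (x : Up) : ℕ := sm a.1 (fun i => WR a i (row a x i)) + sm a.2.1 fun j => WC a j (col a x j)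
/-- List version. -/
def tr (x : Up) (i j : ℕ) : ℤ :=
  if j = amax a.2.1 then ent x i j - (row a x i - rh a i) else ent x i j
/-- List version. -/
def tb (x : Up) (i j : ℕ) : ℤ :=
  if i = amax a.1 then c a j - smZ a.1 fun l => tr a x l j else tr a x i j
/-- List version. -/
def Acc (x : Up) : Bool :=
  ((List.range a.1.length).all fun i =>
    decide ((rh a i : ℤ) ≤ row a x i) && decide (row a x i ≤ rh a i + aa a i)) &&
  (List.range a.1.length).all fun i => (List.range a.2.1.length).all fun j => decide (0 ≤ tb a x i j)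
/-- List version. -/
def tab (x : Up) : List (List ℕ) :=
  (List.range a.1.length).map fun i => (List.range a.2.1.length).map fun j => (tb a x i j).toNat
/-- List version. -/
def nw : List (List ℕ) :=
  (List.range a.1.length).map fun i => (List.range a.2.1.length).map fun j =>
    min (a.1.take (i + 1)).sum (a.2.1.take (j + 1)).sum - max (a.1.take i).sum (a.2.1.take j).sum
/-- List version. -/
def K4 : ℕ := b a * q a ^ 18
/-- List version. -/
def B1 : ℕ := 2 * b a + q a + K4 a
/-- List version. -/
def T1 : ℕ := q a ^ 134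
/-- List version. -/
def inc (x y : Up) : ℕ := min (W a y - W a x) (q a ^ 18)
/-- The proposed update. -/
def upd (l : List Bool) : ℕ × ℕ × ℕ :=
  (val (l.take (b a)), val ((l.drop (b a)).take (b a)),
    val ((l.drop (2 * b a)).take (ex a (val (l.take (b a))) (val ((l.drop (b a)).take (b a))))))
/-- Whether the update is made. -/
def ok (l : List Bool) (x : Up) : Bool :=
  decide ((upd a l).1 < a.1.length) && decide ((upd a l).2.1 < a.2.1.length) &&
    decide (val (((l.drop (2 * b a)).drop (q a)).take (K4 a)) * pw a (q a) (inc a x (upd a l :: x)) <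
      pw a (q a - 1) (inc a x (upd a l :: x)) * pw a 2 (K4 a))
/-- One step. -/
def step (l : List Bool) (x : Up) : Up := cond (ok a l x) (upd a l :: x) x
/-- One run. -/
def run (l : List Bool) : Up :=
  (List.range (a.2.2.2.take (T1 a)).length).foldl
    (fun x s => step a ((l.drop (s * B1 a)).take (B1 a)) x) []
/-- The algorithm. -/
def alg : List (List ℕ) :=
  ((((List.range (a.2.2.2.take (q a)).length).map fun s =>
    run a ((a.2.2.2.drop (s * (T1 a * B1 a))).take (T1 a * B1 a))).filter (Acc a)).map
      (tab a)).headD (nw a)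

attribute [local irreducible] sm smZ amax ent r c t bU b q pw rh hh mu aa SA gg cc ex WR WC row col W
  tr tb Acc tab nw K4 B1 T1 inc upd ok step run val

section
variable {α : Type} [Enc α]

@[fun_prop] theorem pt_npow {f : α → ℕ} (hf : PT f) (k : ℕ) : PT fun x => f x ^ k :=
  (pow hf (PT.const (List.replicate k ()))).of_eq fun x => by simp

@[fun_prop] theorem pt_val {f : α → List Bool} (hf : PT f) : PT fun x => val (f x) := by
  unfold val
  refine PT.foldl (h := fun _ (m : ℕ) (b : Bool) => Nat.bit b m) (by fun_prop) hf (PT.const 0)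
    (fun x => 4 * (f x).length + 1) (by fun_prop) fun x i => sz_nat_le ?_
  have key : ∀ (l : List Bool) (m k : ℕ), m < 2 ^ k →
      l.foldl (fun m b => Nat.bit b m) m < 2 ^ (k + l.length) := by
    intro l
    induction l with
    | nil => intro m k h; simpa using h
    | cons y l ih =>
      intro m k h
      have := ih (Nat.bit y m) (k + 1) (by rw [Nat.bit_val, pow_succ]; cases y <;> simp <;> omega)
      simpa [add_assoc, add_comm 1] using this
  refine (key _ 0 0 (by simp)).trans_le (Nat.pow_le_pow_right (by omega) ?_)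
  simp

@[fun_prop] theorem pt_sm {l : α → List ℕ} {f : α → ℕ → ℕ} (hl : PT l)
    (hf : PT fun p : α × ℕ => f p.1 p.2) : PT fun x => sm (l x) (f x) := by
  unfold sm; fun_prop

@[fun_prop] theorem pt_smZ {l : α → List ℕ} {f : α → ℕ → ℤ} (hl : PT l)
    (hf : PT fun p : α × ℕ => f p.1 p.2) : PT fun x => smZ (l x) (f x) := by
  unfold smZ; fun_prop

@[fun_prop] theorem pt_amax {l : α → List ℕ} (hl : PT l) : PT fun x => amax (l x) := by
  unfold amax; fun_prop

variable {g : α → In} {i j : α → ℕ} {x y : α → Up} {s : α → ℤ} {l : α → List Bool}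

@[fun_prop] theorem pt_ent (hx : PT x) (hi : PT i) (hj : PT j) :
    PT fun z => ent (x z) (i z) (j z) := by unfold ent; fun_prop

variable (hg : PT g)
include hg

@[fun_prop] theorem pt_r (hi : PT i) : PT fun z => r (g z) (i z) := by unfold r; fun_prop
@[fun_prop] theorem pt_c (hi : PT i) : PT fun z => c (g z) (i z) := by unfold c; fun_prop
@[fun_prop] theorem pt_t : PT fun z => t (g z) := by unfold t; fun_prop
@[fun_prop] theorem pt_bU : PT fun z => bU (g z) := by unfold bU; fun_prop
@[fun_prop] theorem pt_b : PT fun z => b (g z) := by unfold b; fun_prop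
@[fun_prop] theorem pt_q : PT fun z => q (g z) := by
  unfold q; exact pow (PT.const 2) (pt_bU hg)
@[fun_prop] theorem pt_pw (hi : PT i) (hj : PT j) : PT fun z => pw (g z) (i z) (j z) := by
  unfold pw; exact pow hi (by fun_prop)
@[fun_prop] theorem pt_rh (hi : PT i) : PT fun z => rh (g z) (i z) := by unfold rh; fun_prop
@[fun_prop] theorem pt_hh (hi : PT i) : PT fun z => hh (g z) (i z) := by unfold hh; fun_prop
@[fun_prop] theorem pt_mu (hi : PT i) : PT fun z => mu (g z) (i z) := by unfold mu; fun_prop
@[fun_prop] theorem pt_aa (hi : PT i) : PT fun z => aa (g z) (i z) := by unfold aa; fun_prop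
@[fun_prop] theorem pt_SA : PT fun z => SA (g z) := by unfold SA; fun_prop
@[fun_prop] theorem pt_gg (hi : PT i) : PT fun z => gg (g z) (i z) := by unfold gg; fun_prop
@[fun_prop] theorem pt_cc (hi : PT i) : PT fun z => cc (g z) (i z) := by unfold cc; fun_prop
@[fun_prop] theorem pt_ex (hi : PT i) (hj : PT j) : PT fun z => ex (g z) (i z) (j z) := by
  unfold ex; fun_prop
@[fun_prop] theorem pt_WR (hi : PT i) (hs : PT s) : PT fun z => WR (g z) (i z) (s z) := by
  unfold WR; fun_prop
@[fun_prop] theorem pt_WC (hi : PT i) (hs : PT s) : PT fun z => WC (g z) (i z) (s z) := by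
  unfold WC; fun_prop
@[fun_prop] theorem pt_row (hx : PT x) (hi : PT i) : PT fun z => row (g z) (x z) (i z) := by
  unfold row; fun_prop
@[fun_prop] theorem pt_col (hx : PT x) (hi : PT i) : PT fun z => col (g z) (x z) (i z) := by
  unfold col; fun_prop
@[fun_prop] theorem pt_W (hx : PT x) : PT fun z => W (g z) (x z) := by unfold W; fun_prop
@[fun_prop] theorem pt_tr (hx : PT x) (hi : PT i) (hj : PT j) :
    PT fun z => tr (g z) (x z) (i z) (j z) := by unfold tr; fun_prop
@[fun_prop] theorem pt_tb (hx : PT x) (hi : PT i) (hj : PT j) :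
    PT fun z => tb (g z) (x z) (i z) (j z) := by unfold tb; fun_prop
@[fun_prop] theorem pt_Acc (hx : PT x) : PT fun z => Acc (g z) (x z) := by unfold Acc; fun_prop
@[fun_prop] theorem pt_tab (hx : PT x) : PT fun z => tab (g z) (x z) := by unfold tab; fun_prop
@[fun_prop] theorem pt_nw : PT fun z => nw (g z) := by unfold nw; fun_prop
@[fun_prop] theorem pt_K4 : PT fun z => K4 (g z) := by unfold K4; fun_prop
@[fun_prop] theorem pt_B1 : PT fun z => B1 (g z) := by unfold B1; fun_prop
@[fun_prop] theorem pt_T1 : PT fun z => T1 (g z) := by unfold T1; fun_prop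
@[fun_prop] theorem pt_inc (hx : PT x) (hy : PT y) : PT fun z => inc (g z) (x z) (y z) := by
  unfold inc; fun_prop
@[fun_prop] theorem pt_upd (hl : PT l) : PT fun z => upd (g z) (l z) := by unfold upd; fun_prop
@[fun_prop] theorem pt_ok (hl : PT l) (hx : PT x) : PT fun z => ok (g z) (l z) (x z) := by
  unfold ok; fun_prop
@[fun_prop] theorem pt_step (hl : PT l) (hx : PT x) : PT fun z => step (g z) (l z) (x z) := by
  unfold step; fun_prop
@[fun_prop] theorem pt_run (hl : PT l) : PT fun z => run (g z) (l z) := by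
  unfold run
  refine PT.foldl_add
    (h := fun z (x : Up) (s : ℕ) => step (g z) (((l z).drop (s * B1 (g z))).take (B1 (g z))) x)
    (by fun_prop) (by fun_prop) (PT.const [])
    (fun p => sz (upd (g p.1) (((l p.1).drop (p.2 * B1 (g p.1))).take (B1 (g p.1)))) + 1)
    (by fun_prop) fun z x s => ?_
  unfold step
  cases ok (g z) (((l z).drop (s * B1 (g z))).take (B1 (g z))) x
  · simp
  · simp only [cond_true, sz_cons]; omega

end

theorem pt_alg : PT alg := by unfold alg; fun_prop

end Vale.Agent.P328.AL
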